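import Vale.Agent.P237.Petty.Cor.Mid50.Poly

/-!
# P237: constants of the cell from `6 / (p + 2)` to `1 / 5`, middle orders
-/

namespace Vale.Agent.P237.Petty.Cor.Mid50.Cell1

/-- The piece on `[0, 3 / 20]`. -/
def piece1 : Piece :=
  ⟨(0), (3 / 20), (1 / 49), (9999 / 10000), (5001 / 10000), (10001 / 10000),
    (2501 / 5000), (2657 / 2000), (27477 / 5000), (0), (7733 / 5000), true⟩

/-- The piece on `[3 / 20, 3 / 10]`. -/
def piece2 : Piece :=
  ⟨(3 / 20), (3 / 10), (1 / 49), (9999 / 10000), (5007 / 10000), (10001 / 10000),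
    (313 / 625), (6939 / 5000), (21457 / 10000), (0), (7733 / 5000), true⟩

/-- The piece on `[3 / 10, 9 / 20]`. -/
def piece3 : Piece :=
  ⟨(3 / 10), (9 / 20), (1 / 49), (9999 / 10000), (5019 / 10000), (10001 / 10000),
    (251 / 500), (6139 / 5000), (12033 / 10000), (3 / 10), (13087 / 10000), true⟩

/-- The piece on `[9 / 20, 3 / 5]`. -/
def piece4 : Piece :=
  ⟨(9 / 20), (3 / 5), (1 / 49), (9999 / 10000), (1007 / 2000), (10001 / 10000),
    (1259 / 2500), (12081 / 10000), (1731 / 2000), (9 / 20), (6151 / 5000), true⟩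

/-- The piece on `[3 / 5, 4 / 5]`. -/
def piece5 : Piece :=
  ⟨(3 / 5), (4 / 5), (1 / 49), (9999 / 10000), (5063 / 10000), (1),
    (633 / 1250), (6099 / 5000), (821 / 1250), (3 / 5), (2941 / 2500), true⟩

/-- The piece on `[4 / 5, 1]`. -/
def piece6 : Piece :=
  ⟨(4 / 5), (1), (1 / 49), (9999 / 10000), (2551 / 5000), (1),
    (5103 / 10000), (6493 / 5000), (669 / 1250), (3 / 5), (2941 / 2500), true⟩

/-- The piece on `[1, 6 / 5]`. -/
def piece7 : Piece :=
  ⟨(1), (6 / 5), (1 / 49), (4999 / 5000), (322 / 625), (9999 / 10000),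
    (5153 / 10000), (13821 / 10000), (4529 / 10000), (3 / 5), (2941 / 2500), true⟩

/-- The piece on `[6 / 5, 29 / 20]`. -/
def piece8 : Piece :=
  ⟨(6 / 5), (29 / 20), (1 / 49), (2499 / 2500), (653 / 1250), (4999 / 5000),
    (209 / 400), (14811 / 10000), (1933 / 5000), (3 / 5), (2941 / 2500), true⟩

/-- The piece on `[29 / 20, 17 / 10]`. -/
def piece9 : Piece :=
  ⟨(29 / 20), (17 / 10), (1 / 49), (9993 / 10000), (5317 / 10000), (2499 / 2500),
    (5319 / 10000), (399 / 250), (208 / 625), (3 / 5), (2941 / 2500), true⟩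

/-- The piece on `[17 / 10, 19 / 10]`. -/
def piece10 : Piece :=
  ⟨(17 / 10), (19 / 10), (1 / 49), (9989 / 10000), (5413 / 10000), (1249 / 1250),
    (677 / 1250), (1703 / 1000), (2959 / 10000), (3 / 5), (2941 / 2500), true⟩

/-- The piece on `[19 / 10, 2]`. -/
def piece11 : Piece :=
  ⟨(19 / 10), (2), (1 / 49), (1997 / 2000), (5479 / 10000), (2497 / 2500),
    (2741 / 5000), (17761 / 10000), (551 / 2000), (3 / 5), (2941 / 2500), true⟩

/-- The piece on `[2, 51 / 20]`. -/
def piece12 : Piece :=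
  ⟨(2), (51 / 20), (1 / 49), (9967 / 10000), (5729 / 10000), (9977 / 10000),
    (5739 / 10000), (3881 / 2000), (2393 / 10000), (3 / 5), (2941 / 2500), false⟩

/-- The piece on `[51 / 20, 33 / 10]`. -/
def piece13 : Piece :=
  ⟨(51 / 20), (33 / 10), (1 / 49), (4949 / 5000), (1579 / 2500), (9929 / 10000),
    (127 / 200), (22783 / 10000), (949 / 5000), (3 / 5), (2941 / 2500), false⟩

/-- The piece on `[33 / 10, 4]`. -/
def piece14 : Piece :=
  ⟨(33 / 10), (4), (1 / 49), (9729 / 10000), (7241 / 10000), (9793 / 10000),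
    (733 / 1000), (13337 / 5000), (771 / 5000), (3 / 5), (2941 / 2500), false⟩

/-- The piece on `[4, 23 / 5]`. -/
def piece15 : Piece :=
  ⟨(4), (23 / 5), (1 / 49), (2351 / 2500), (2123 / 2500), (9513 / 10000),
    (8693 / 10000), (30251 / 10000), (1319 / 10000), (3 / 5), (2941 / 2500), false⟩

/-- The piece on `[23 / 5, 5]`. -/
def piece16 : Piece :=
  ⟨(23 / 5), (5), (1 / 49), (4479 / 5000), (2459 / 2500), (1137 / 1250),
    (10179 / 10000), (4129 / 1250), (1187 / 10000), (3 / 5), (2941 / 2500), false⟩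

/-- The piece on `[5, 267 / 50]`. -/
def piece17 : Piece :=
  ⟨(5), (267 / 50), (1 / 49), (4197 / 5000), (2819 / 2500), (8559 / 10000),
    (11871 / 10000), (8777 / 2500), (221 / 2000), (3 / 5), (2941 / 2500), false⟩

/-- The piece on `[267 / 50, 111 / 20]`. -/
def piece18 : Piece :=
  ⟨(267 / 50), (111 / 20), (39 / 2000), (803 / 1000), (12119 / 10000), (8167 / 10000),
    (51 / 40), (36659 / 10000), (1051 / 10000), (3 / 5), (2941 / 2500), false⟩

/-- The piece on `[111 / 20, 289 / 50]`. -/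
def piece19 : Piece :=
  ⟨(111 / 20), (289 / 50), (9 / 500), (7847 / 10000), (3131 / 2500), (3979 / 5000),
    (6553 / 5000), (37917 / 10000), (1011 / 10000), (3 / 5), (2941 / 2500), false⟩

/-- The piece on `[289 / 50, 601 / 100]`. -/
def piece20 : Piece :=
  ⟨(289 / 50), (601 / 100), (33 / 2000), (959 / 1250), (12901 / 10000), (3877 / 5000),
    (3347 / 2500), (9803 / 2500), (973 / 10000), (3 / 5), (2941 / 2500), false⟩

/-- The piece on `[601 / 100, 25 / 4]`. -/
def piece21 : Piece :=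
  ⟨(601 / 100), (25 / 4), (61 / 4000), (7427 / 10000), (1677 / 1250), (3743 / 5000),
    (3459 / 2500), (2536 / 625), (117 / 1250), (3 / 5), (2941 / 2500), false⟩

/-- The piece on `[25 / 4, 13 / 2]`. -/
def piece22 : Piece :=
  ⟨(25 / 4), (13 / 2), (57 / 4000), (883 / 1250), (3539 / 2500), (7101 / 10000),
    (1817 / 1250), (10493 / 2500), (901 / 10000), (3 / 5), (2941 / 2500), false⟩

/-- The piece on `[13 / 2, 169 / 25]`. -/
def piece23 : Piece :=
  ⟨(13 / 2), (169 / 25), (53 / 4000), (416 / 625), (3739 / 2500), (267 / 400),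
    (15271 / 10000), (21719 / 5000), (867 / 10000), (3 / 5), (2941 / 2500), false⟩

/-- The piece on `[169 / 25, 703 / 100]`. -/
def piece24 : Piece :=
  ⟨(169 / 25), (703 / 100), (49 / 4000), (1241 / 2000), (3953 / 2500), (621 / 1000),
    (8019 / 5000), (4493 / 1000), (167 / 2000), (3 / 5), (2941 / 2500), false⟩

/-- The piece on `[703 / 100, 731 / 100]`. -/
def piece25 : Piece :=
  ⟨(703 / 100), (731 / 100), (9 / 800), (5713 / 10000), (3343 / 2000), (357 / 625),
    (16839 / 10000), (2909 / 625), (803 / 10000), (3 / 5), (2941 / 2500), false⟩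

/-- The piece on `[731 / 100, 147 / 20]`. -/
def piece26 : Piece :=
  ⟨(731 / 100), (147 / 20), (21 / 2000), (5603 / 10000), (8457 / 5000), (5603 / 10000),
    (8461 / 5000), (2966 / 625), (393 / 5000), (3 / 5), (2941 / 2500), false⟩

/-- The constants. -/
def data : Data where
  mlo := 49
  mhi := 98
  hk := (12661 / 10000)
  g := (1)
  n0 := (271 / 250)
  n1 := (-6 / 5)
  g1 := (-363 / 100)
  a := (491 / 500)
  l0 := (-841 / 500)
  l1 := (3143 / 1000)
  phi := (63 / 100)
  v1 := (51 / 50)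
  z2 := (11 / 20)
  ev := (2443 / 2000)
  pieces := [piece1, piece2, piece3, piece4, piece5, piece6, piece7, piece8, piece9, piece10,
    piece11, piece12, piece13, piece14, piece15, piece16, piece17, piece18, piece19, piece20,
    piece21, piece22, piece23, piece24, piece25, piece26]
  terms := [⟨0, 0, (493 / 500)⟩, ⟨1, 0, (-181 / 100)⟩, ⟨2, 0, (699 / 500)⟩, ⟨3, 0, (9 / 100)⟩,
    ⟨4, 0, (-23 / 1000)⟩, ⟨5, 0, (173 / 100000)⟩, ⟨2, 1, (2907 / 1000)⟩, ⟨3, 2, (-607 / 500)⟩,
    ⟨4, 3, (529 / 1000)⟩]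

end Vale.Agent.P237.Petty.Cor.Mid50.Cell1
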