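import Vale.Agent.P237.Petty.Cor.Few.Mask
import Vale.Agent.P237.Petty.Cor.Mid50.Good
import Vale.Agent.P237.Petty.Cor.Mid50.Cell1.Data

/-!
# P237: certificates of the cell from `6 / (p + 2)` to `1 / 5`, part 2
-/

namespace Vale.Agent.P237.Petty.Cor.Mid50.Cell1

open P100.Bernstein

def far12_lh : certify false
    (farClaim ofRat data Corner.lh piece12 (.var 0) (.var 1) (.var 2))
    (box3 data piece12)
    (.split 2 (.split 1 (.split 0 (.split 2 .leaf (.split 2 (.split 0 (.split 2 (.split 2
      .leaf (.split 2 .leaf (.split 0 .leaf .leaf))) (.split 0 (.split 0 (.split 1 (.split 2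
      (.split 2 .leaf .leaf) .leaf) .leaf) .leaf) .leaf)) (.split 2 (.split 1 (.split 0 (.split
      2 .leaf (.split 2 .leaf .leaf)) (.split 2 (.split 2 .leaf .leaf) (.split 2 .leaf .leaf)))
      (.split 0 (.split 2 .leaf (.split 2 .leaf .leaf)) (.split 2 (.split 2 .leaf .leaf)
      .leaf))) .leaf)) .leaf)) (.split 2 (.split 2 .leaf (.split 2 .leaf (.split 2 .leaf
      (.split 2 .leaf .leaf)))) (.split 2 (.split 2 (.split 2 (.split 1 (.split 0 (.split 2
      .leaf (.split 0 .leaf .leaf)) (.split 2 .leaf .leaf)) (.split 2 (.split 0 .leaf .leaf)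
      .leaf)) .leaf) .leaf) .leaf))) (.split 0 (.split 2 .leaf (.split 2 (.split 2 (.split 2
      (.split 2 .leaf .leaf) (.split 0 (.split 2 .leaf .leaf) .leaf)) .leaf) .leaf)) (.split 2
      (.split 2 .leaf (.split 2 .leaf (.split 2 .leaf (.split 2 .leaf .leaf)))) (.split 0
      (.split 2 (.split 2 (.split 2 (.split 2 .leaf .leaf) .leaf) .leaf) .leaf) .leaf))))
      .leaf) = true := by
  refine Few.certify_of_quick ?_
  decide +kernel

def far12_hl : certify false
    (farClaim ofRat data Corner.hl piece12 (.var 0) (.var 1) (.var 2))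
    (box3 data piece12)
    (.split 2 (.split 1 (.split 0 (.split 2 .leaf (.split 2 (.split 0 (.split 2 (.split 2
      .leaf (.split 2 .leaf (.split 0 .leaf .leaf))) (.split 0 (.split 1 (.split 2 (.split 2
      .leaf .leaf) .leaf) .leaf) .leaf)) (.split 2 (.split 1 (.split 0 (.split 2 .leaf (.split
      2 .leaf .leaf)) (.split 2 (.split 2 .leaf .leaf) (.split 2 .leaf .leaf))) (.split 0
      (.split 2 .leaf (.split 2 .leaf .leaf)) (.split 2 (.split 2 .leaf .leaf) .leaf))) .leaf))
      .leaf)) (.split 2 (.split 2 .leaf (.split 2 .leaf (.split 0 .leaf (.split 2 .leaf (.split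
      2 .leaf .leaf))))) (.split 2 (.split 2 (.split 2 (.split 1 (.split 0 (.split 2 .leaf
      .leaf) (.split 2 .leaf .leaf)) (.split 2 .leaf .leaf)) .leaf) .leaf) .leaf))) (.split 0
      (.split 2 .leaf (.split 2 (.split 2 (.split 2 (.split 2 .leaf .leaf) (.split 2 .leaf
      .leaf)) .leaf) .leaf)) (.split 2 (.split 2 .leaf (.split 2 .leaf (.split 2 .leaf (.split
      2 .leaf .leaf)))) (.split 0 (.split 2 (.split 2 (.split 2 (.split 2 .leaf .leaf) .leaf)
      .leaf) .leaf) .leaf)))) .leaf) = true := by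
  refine Few.certify_of_quick ?_
  decide +kernel

def far12_hh : certify false
    (farClaim ofRat data Corner.hh piece12 (.var 0) (.var 1) (.var 2))
    (box3 data piece12)
    (.split 2 (.split 1 (.split 0 (.split 2 .leaf (.split 2 (.split 0 (.split 2 (.split 2
      .leaf (.split 2 .leaf (.split 0 .leaf .leaf))) (.split 0 (.split 0 (.split 1 (.split 2
      (.split 2 .leaf .leaf) .leaf) .leaf) .leaf) .leaf)) (.split 2 (.split 1 (.split 0 (.split
      2 .leaf (.split 2 .leaf .leaf)) (.split 2 (.split 2 .leaf .leaf) (.split 2 .leaf .leaf)))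
      (.split 0 (.split 2 .leaf (.split 2 .leaf .leaf)) (.split 2 (.split 2 .leaf .leaf)
      .leaf))) .leaf)) .leaf)) (.split 2 (.split 2 .leaf (.split 2 .leaf (.split 2 .leaf
      (.split 2 .leaf .leaf)))) (.split 2 (.split 2 (.split 2 (.split 1 (.split 0 (.split 2
      .leaf .leaf) (.split 2 .leaf .leaf)) (.split 2 (.split 0 .leaf .leaf) .leaf)) .leaf)
      .leaf) .leaf))) (.split 0 (.split 2 .leaf (.split 2 (.split 2 (.split 2 (.split 2 .leaf
      .leaf) (.split 2 .leaf .leaf)) .leaf) .leaf)) (.split 2 (.split 2 .leaf (.split 2 .leaf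
      (.split 2 .leaf (.split 2 .leaf .leaf)))) (.split 0 (.split 2 (.split 2 (.split 2 (.split
      2 .leaf .leaf) .leaf) .leaf) .leaf) .leaf)))) .leaf) = true := by
  refine Few.certify_of_quick ?_
  decide +kernel

def top13 : certify false
    (topExpr piece13)
    (topBox data piece13)
    (.split 0 .leaf .leaf) = true := by
  refine Few.certify_of_quick ?_
  decide +kernel

def low13 : certify false
    (loExpr piece13)
    (zBox data piece13)
    (.split 0 .leaf .leaf) = true := by
  refine Few.certify_of_quick ?_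
  decide +kernel

def high13 : certify false
    (hiExpr piece13)
    (zBox data piece13)
    .leaf = true := by
  refine Few.certify_of_quick ?_
  decide +kernel

def far13_ll : certify false
    (farClaim ofRat data Corner.ll piece13 (.var 0) (.var 1) (.var 2))
    (box3 data piece13)
    (.split 2 (.split 2 (.split 2 .leaf (.split 2 (.split 2 .leaf (.split 0 .leaf .leaf))
      (.split 1 (.split 0 (.split 2 (.split 2 .leaf .leaf) (.split 1 (.split 0 (.split 2 .leaf
      .leaf) (.split 2 .leaf .leaf)) (.split 2 .leaf .leaf))) (.split 2 (.split 2 .leaf .leaf)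
      .leaf)) (.split 0 (.split 2 (.split 0 .leaf .leaf) .leaf) .leaf)))) .leaf) .leaf) = true := by
  refine Few.certify_of_quick ?_
  decide +kernel

def far13_lh : certify false
    (farClaim ofRat data Corner.lh piece13 (.var 0) (.var 1) (.var 2))
    (box3 data piece13)
    (.split 2 (.split 2 (.split 2 .leaf (.split 2 (.split 2 .leaf (.split 0 (.split 1 .leaf
      .leaf) (.split 2 .leaf (.split 1 .leaf .leaf)))) (.split 1 (.split 0 (.split 2 (.split 2
      .leaf (.split 0 .leaf (.split 0 .leaf .leaf))) (.split 1 (.split 0 (.split 2 .leaf .leaf)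
      (.split 2 .leaf .leaf)) (.split 0 (.split 2 .leaf .leaf) .leaf))) (.split 2 (.split 0
      (.split 2 .leaf .leaf) .leaf) .leaf)) (.split 0 (.split 2 (.split 1 (.split 2 .leaf
      (.split 0 .leaf .leaf)) (.split 2 .leaf .leaf)) (.split 2 .leaf .leaf)) .leaf)))) .leaf)
      .leaf) = true := by
  refine Few.certify_of_quick ?_
  decide +kernel

end Vale.Agent.P237.Petty.Cor.Mid50.Cell1
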